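import Vale.Agent.P269.H598.RConn
import Vale.Agent.P269.H598.TRRSys

/-!
The Virasoro constraints for complete intersections of dimension at least three with
nonnegative canonical class.
-/

namespace Vale.Agent.P269.H598

lemma prod_ne_zero_of (d : List ℕ) (hd : ∀ k ∈ d, 1 ≤ k) : d.prod ≠ 0 := by
  induction d with
  | nil => simp
  | cons k d ih =>
    rw [List.prod_cons]
    have h1 := hd k List.mem_cons_self
    exact Nat.mul_ne_zero (by omega) (ih fun j hj => hd j (List.mem_cons_of_mem _ hj))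

end Vale.Agent.P269.H598

open Vale.Agent.P269.H598

/-- Let `r ≥ 3` and let `d` be a list of positive integers (the multidegree). For every possible
primitive cohomology:

* every system of numbers satisfying the axioms for the descendant Gromov-Witten invariants of
  a smooth complete intersection `X ⊂ ℙ^{r+c}` of dimension `r` and multidegree `d`, and the
  topological recursion relations in genus zero, satisfies all the Virasoro constraints
  `L_k Z = 0`, `k ≥ -1`, if `∑ d_i ≥ r + c + 1`, i.e. if the canonical class of `X` is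
  nonnegative;
* if `∑ (d_i - 1) ≥ 2 r - 2`, then the topological recursion relations are not needed for this;
* there is a system which satisfies the axioms and the topological recursion relations, for
  given values of the correlators without insertions in degree zero and genus at least two
  (which must be zero if `r ≠ 3`), and if `∑ (d_i - 1) ≥ 2 r - 1`, then there is no other system
  with these values which satisfies the axioms;
* without any condition on `d`, the coefficient of `ħ^{g-1} Q^e` in `L_k Z / Z`, `k = K - 1`,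
  is zero if `k ≤ 0`, or `g = 0` and `e = 0`, or `g = 0` and the topological recursion relations
  hold, or the virtual dimension `(1 - g) (r - 3) + (r + c + 1 - ∑ d_i) e` is not positive. -/
theorem Vale.Agent.Results.P269.ACanonical.result
    (r : ℕ) (hr : 3 ≤ r) (d : List ℕ) (hd : ∀ k ∈ d, 1 ≤ k)
    {P : Type} [Fintype P] [DecidableEq P] (hp : P → ℕ) (Q : Matrix P P ℂ)
    (hP : IsPrim r d hp Q) :
    (r + d.length + 1 ≤ d.sum →
      ∀ (C : ℕ → ℂ) (inv : ℕ → ℕ → List ((Fin (r + 1) ⊕ P) × ℕ) → ℂ),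
        (CI r d hp Q).IsGW C inv → (CI r d hp Q).TRR inv → (CI r d hp Q).Virasoro inv) ∧
    (2 * r - 2 + d.length ≤ d.sum →
      ∀ (C : ℕ → ℂ) (inv : ℕ → ℕ → List ((Fin (r + 1) ⊕ P) × ℕ) → ℂ),
        (CI r d hp Q).IsGW C inv → (CI r d hp Q).Virasoro inv) ∧
    (∀ C : ℕ → ℂ, (r = 3 ∨ ∀ g, C g = 0) →
      ∃ inv : ℕ → ℕ → List ((Fin (r + 1) ⊕ P) × ℕ) → ℂ,
        (CI r d hp Q).IsGW C inv ∧ (CI r d hp Q).TRR inv ∧
        (2 * r - 1 + d.length ≤ d.sum → ∀ inv', (CI r d hp Q).IsGW C inv' → inv' = inv)) ∧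
    (∀ (C : ℕ → ℂ) (inv : ℕ → ℕ → List ((Fin (r + 1) ⊕ P) × ℕ) → ℂ),
      (CI r d hp Q).IsGW C inv → ∀ K g e : ℕ,
        (K ≤ 1 ∨ (g = 0 ∧ e = 0) ∨ (g = 0 ∧ (CI r d hp Q).TRR inv) ∨
          (1 - (g : ℤ)) * ((r : ℤ) - 3) + ((r : ℤ) + d.length + 1 - d.sum) * e ≤ 0) →
        ∀ S, (CI r d hp Q).vir inv K g e S = 0) := by
  have hprod := prod_ne_zero_of d hd
  have hG := CI_good hr hprod hP
  have hI := CI_intGood (by omega) hprod hP
  have hLW := CI_LW hP
  have hdim : (CI r d hp Q).dim = r := rfl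
  have hκ : (CI r d hp Q).κ = (r : ℤ) + d.length + 1 - d.sum := rfl
  have hlast : ∀ (C : ℕ → ℂ) (inv : ℕ → ℕ → List ((Fin (r + 1) ⊕ P) × ℕ) → ℂ),
      (CI r d hp Q).IsGW C inv → ∀ K g e : ℕ,
        (K ≤ 1 ∨ (g = 0 ∧ e = 0) ∨ (g = 0 ∧ (CI r d hp Q).TRR inv) ∨
          (1 - (g : ℤ)) * ((r : ℤ) - 3) + ((r : ℤ) + d.length + 1 - d.sum) * e ≤ 0) →
        ∀ S, (CI r d hp Q).vir inv K g e S = 0 := by
    intro C inv hinv K g e h S
    rcases h with h | h | h | h
    · rcases K with _ | _ | K
      · exact Coh.vir_zero hG hinv.toAxioms g e S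
      · exact Coh.vir_one hG hinv.toAxioms hLW g e S
      · omega
    · rw [h.1, h.2]
      exact Coh.vir_genus0 hG hI hinv.deg0 K S
    · rw [h.1]
      exact Coh.vir_genus_zero hG hLW hinv.toAxioms h.2 K e S
    · exact Coh.vir_nonpos hG hLW hinv.toAxioms g e (by rw [hκ, hdim]; exact h) K S
  refine ⟨?_, ?_, ?_, hlast⟩
  · intro h C inv hinv ht K g e S
    apply hlast C inv hinv K g e
    rcases g with _ | g
    · exact Or.inr (Or.inr (Or.inl ⟨rfl, ht⟩))
    · refine Or.inr (Or.inr (Or.inr ?_))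
      have a1 : (3 : ℤ) ≤ r := by exact_mod_cast hr
      have a2 : (r : ℤ) + d.length + 1 ≤ d.sum := by exact_mod_cast h
      have a3 : (0 : ℤ) ≤ e := by positivity
      have a4 : (0 : ℤ) ≤ g := by positivity
      push_cast
      nlinarith
  · intro h C inv hinv
    refine Coh.virasoro_of hG hI hLW (by rw [hdim]; exact hr) ?_ hinv
    rw [hκ, hdim]
    omega
  · intro C hC
    refine ⟨(CI r d hp Q).sys C, Coh.sys_isGW hG hI (by rw [hdim]; exact hC),
      Coh.sys_trr hG hI C, ?_⟩
    intro h inv hinv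
    refine Coh.unique hG ?_ (by rw [hdim]; exact hr) ?_ hinv
      (Coh.sys_isGW hG hI (by rw [hdim]; exact hC))
    · intro a ha
      rcases a with i | a
      · have h1 : (i : ℕ) + (i : ℕ) = 2 := ha
        show Sum.inl i = Sum.inl 1
        congr 1; ext; rw [CI_h_val (by omega)]; omega
      · have h1 : hp a + (r - hp a) = 2 := ha
        omega
    · rw [hκ, hdim]
      omega
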