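import Vale.Agent.P269.H597.Final

/-!
# The Virasoro constraints for complete intersections

All constraints for complete intersections of dimension at least three with `K_X ≥ 0`; all
constraints in genus zero and in nonpositive virtual dimension for every complete intersection;
reduction of the constraints at `(g, d)` to finitely many; consistency of the axioms, and
uniqueness of their solution for `K_X = O(k)`, `k ≥ dim X - 2`.
-/

open Vale.Agent.P269.CI in
theorem Vale.Agent.Results.P269.ACanonicalNonneg.result (X : CompleteIntersection) :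
    (3 ≤ X.dim → index X ≤ 0 → ∀ F, IsGW X F →
      ∀ (K g d : ℕ) (L : List (Ins X)), virasoro X F K g d L = 0) ∧
    (∀ F, IsGW X F → ∀ (K g d : ℕ) (L : List (Ins X)),
      g = 0 ∨ (1 - (g : ℤ)) * (X.dim - 3) + index X * d ≤ 0 → virasoro X F K g d L = 0) ∧
    (∀ F, IsGW X F → ∀ g d : ℕ,
      (∀ (K : ℕ) (L : List (Ins X)), (K : ℤ) ≤ 1 + (1 - (g : ℤ)) * (X.dim - 3) + index X * d →
        virasoro X F K g d L = 0) →
      ∀ (K : ℕ) (L : List (Ins X)), virasoro X F K g d L = 0) ∧
    (∃ F, IsGW X F) ∧ (3 ≤ X.dim → index X ≤ 2 - X.dim → ∃! F, IsGW X F) :=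
  ⟨fun hr hX _ hF K g d L => Vale.Agent.P269.H597.main_nef hr hX hF K g d L,
    fun _ hF K g d L h => Vale.Agent.P269.H597.main_range hF K g d h L,
    fun _ hF g d h K L => Vale.Agent.P269.H597.main_reduce hF g d h K L,
    ⟨_, Vale.Agent.P269.H597.sol_isGW⟩,
    fun hr hX => Vale.Agent.P269.H597.existsUnique hr (by linarith)⟩
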