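import Vale.Agent.P269.H597G2.One
import Vale.Agent.P269.G2I.T.H984_CubicAll
import Vale.Agent.P269.LN.H660.VirLine
import Vale.Agent.P269.LN.H660.Graded
import Vale.Agent.P269.LN.H598.EvenGr
import Vale.Agent.P269.H597.Final

/-!
# Genus-one Virasoro constraints for Fano complete intersections of even dimension
-/

namespace Vale.Agent.Results.P269.FanoGenusOneEven

open Vale.Agent.P269.CI Vale.Agent.P269.H597G2

/-- the ambient constraints up to a degree -/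
theorem ambient_le {X : CompleteIntersection} {F : ℕ → ℕ → List (Ins X) → ℂ} (hF : IsGW X F)
    (h1 : IsGenusOneFull F) (hX : 3 ≤ X.dim) (hi : 2 ≤ index X) (hm : 1 ≤ excess X) (D : ℕ)
    (hz : ∀ k d : ℕ, 1 ≤ d → d ≤ D → index X * d = k → k + 2 ≤ excess X →
      virasoro X F (k + 1) 1 d [] = 0) (k d : ℕ) (L : List (Fin (X.dim + 1))) (hd : d ≤ D) :
    virasoro X F (k + 1) 1 d (L.map (hpow X)) = 0 := by
  refine Vale.Agent.P269.LN.vir_graded hF h1.toOne hX hm hi D hz (k + 1) d hd _ ?_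
  intro x hx
  obtain ⟨j, _, rfl⟩ := List.mem_map.1 hx
  exact ⟨j, rfl⟩

/-- the numbers `L_1` vanish unless they are resonant -/
theorem number_one {X : CompleteIntersection} {F : ℕ → ℕ → List (Ins X) → ℂ} (hF : IsGW X F)
    (h1 : IsGenusOneFull F) (hm : 3 ≤ excess X) (w : List X.Prim) (d : ℕ)
    (hn : ¬ ∃ n : ℕ, w.length = 2 * n ∧ index X * d = 1 + n * ((X.dim : ℤ) - 2)) :
    virasoro X F 2 1 d (w.map fun v => (Sum.inr v, 0)) = 0 := by
  by_cases hodd : w.length % 2 = 1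
  · exact Vale.Agent.P269.G2.vir_odd h1 hm 1 d w hodd
  · refine Vale.Agent.P269.G2.vir_weight hF 1 d w ?_
    obtain ⟨n, hwn⟩ : ∃ n, w.length = 2 * n := ⟨w.length / 2, by omega⟩
    intro h
    refine hn ⟨n, hwn, ?_⟩
    rw [hwn] at h
    push_cast at h
    linarith

/-- the numbers without insertions -/
theorem numbers_zero {X : CompleteIntersection} {F : ℕ → ℕ → List (Ins X) → ℂ} (hF : IsGW X F)
    (h1 : IsGenusOne F) (hi : 2 ≤ index X) (D : ℕ)
    (h : 2 * excess X ≤ X.dim + 2 ∨ (D ≤ 1 ∨ 3 * excess X ≤ 2 * X.dim + 3) ∧ IsLine F) (k d : ℕ)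
    (hd : 1 ≤ d) (hD : d ≤ D) (hk : index X * d = k) (hk2 : k + 2 ≤ excess X) :
    virasoro X F (k + 1) 1 d [] = 0 := by
  rcases h with h2 | ⟨h2, hL⟩
  · exact (no_numbers h2 k d hd hk hk2 hi).elim
  · have h3 := Vale.Agent.P269.G1.index_eq X
    obtain rfl : d = 1 := by
      by_contra hd1
      have h4 : (index X : ℤ) * 2 ≤ k := by
        rw [← hk]
        have : (2 : ℤ) ≤ d := by exact_mod_cast (by omega : 2 ≤ d)
        nlinarith
      omega
    have hk1 : index X = k := by rw [← hk]; simp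
    exact Vale.Agent.P269.LN.vir_line hF h1 hL hi (by omega) k hk1

/-- the general form -/
theorem main_le (X : CompleteIntersection) (he : Even X.dim) (hX : 3 ≤ X.dim)
    (hi : 2 ≤ index X) (F : ℕ → ℕ → List (Ins X) → ℂ) (hF : IsGW X F)
    (h1 : IsGenusOneFull F) (hm : 1 ≤ excess X) (N0 D : ℕ)
    (hz : ∀ k d : ℕ, 1 ≤ d → d ≤ D → index X * d = k → k + 2 ≤ excess X →
        virasoro X F (k + 1) 1 d [] = 0)
    (h3 : ∀ (w : List X.Prim) (d : ℕ), w ≠ [] → w.length ≤ N0 → d ≤ D → (3 ≤ excess X →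
        ∃ n : ℕ, w.length = 2 * n ∧ index X * d = 1 + n * ((X.dim : ℤ) - 2)) →
        virasoro X F 2 1 d (w.map fun v => (Sum.inr v, 0)) = 0)
    (K d : ℕ) (L : List (Ins X)) (hd : d ≤ D) (hL : (L.countP fun x => x.1.isRight) ≤ N0) :
    virasoro X F K 1 d L = 0 := by
  refine Vale.Agent.P269.LN.vir_even_graded hF he h1 hX (by omega) D
    (fun k d L hd => ambient_le hF h1 hX hi hm D hz k d L hd) N0 (fun w hw0 hw d hd => ?_)
    K d hd L hL
  by_cases hr : 3 ≤ excess X →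
      ∃ n : ℕ, w.length = 2 * n ∧ index X * d = 1 + n * ((X.dim : ℤ) - 2)
  · exact h3 w d hw0 hw hd hr
  · obtain ⟨hm3, hn⟩ := Classical.not_imp.1 hr
    exact number_one hF h1 hm3 w d hn

/-- no resonance -/
theorem main_free (X : CompleteIntersection) (he : Even X.dim) (hX : 3 ≤ X.dim)
    (hi : 2 ≤ index X) (F : ℕ → ℕ → List (Ins X) → ℂ) (hF : IsGW X F)
    (h1 : IsGenusOneFull F) (hm : 3 ≤ excess X) (K d : ℕ) (L : List (Ins X))
    (h : 2 * excess X ≤ X.dim + 2 ∨ (d ≤ 1 ∨ 3 * excess X ≤ 2 * X.dim + 3) ∧ IsLine F)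
    (hn : ∀ n e : ℕ, 1 ≤ n → 2 * n ≤ (L.countP fun x => x.1.isRight) → e ≤ d →
      index X * e ≠ 1 + n * ((X.dim : ℤ) - 2)) : virasoro X F K 1 d L = 0 := by
  refine main_le X he hX hi F hF h1 (by omega) (L.countP fun x => x.1.isRight) d
    (fun k e he1 hed hk hk2 => numbers_zero hF h1.toOne hi d h k e he1 hed hk hk2) ?_ K d L le_rfl
    le_rfl
  intro w e hw0 hw he' hr
  obtain ⟨n, hwn, hne⟩ := hr hm
  have := List.length_pos_iff.2 hw0
  exact absurd hne (hn n e (by omega) (by omega) he')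

theorem gcd_case (r : ℕ) (m : ℕ) (idx : ℤ) (hid : idx = (r : ℤ) + 1 - m) (hr : 2 ≤ r)
    (hm : 3 ≤ m) (hg : 1 < Nat.gcd (r - 2) (m - 3)) (n e : ℕ) :
    idx * e ≠ 1 + n * ((r : ℤ) - 2) := by
  intro h
  have h1 : ((Nat.gcd (r - 2) (m - 3) : ℕ) : ℤ) ∣ (r : ℤ) - 2 := by
    have h := Int.natCast_dvd_natCast.2 (Nat.gcd_dvd_left (r - 2) (m - 3))
    rwa [Nat.cast_sub hr] at h
  have h2 : ((Nat.gcd (r - 2) (m - 3) : ℕ) : ℤ) ∣ (m : ℤ) - 3 := by
    have h := Int.natCast_dvd_natCast.2 (Nat.gcd_dvd_right (r - 2) (m - 3))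
    rwa [Nat.cast_sub hm] at h
  have h3 : idx = ((r : ℤ) - 2) - ((m : ℤ) - 3) := by
    rw [hid]
    ring
  have h4 : ((Nat.gcd (r - 2) (m - 3) : ℕ) : ℤ) ∣ 1 + n * ((r : ℤ) - 2) :=
    h ▸ (h3 ▸ dvd_sub h1 h2 : ((Nat.gcd (r - 2) (m - 3) : ℕ) : ℤ) ∣ idx).mul_right _
  have h5 : ((Nat.gcd (r - 2) (m - 3) : ℕ) : ℤ) ∣ 1 :=
    (dvd_add_left (h1.mul_left _)).1 h4
  have h6 := Int.natCast_dvd_natCast.1 (by simpa using h5 :
    ((Nat.gcd (r - 2) (m - 3) : ℕ) : ℤ) ∣ ((1 : ℕ) : ℤ))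
  have h7 := Nat.le_of_dvd one_pos h6
  omega

/-- the other genera in degrees at most one -/
theorem range_le_one (r m g d : ℕ) (idx : ℤ) (hid : idx = (r : ℤ) + 1 - m) (hr : 4 ≤ r)
    (hm : 3 ≤ m) (hd : d ≤ 1) (hi : 2 ≤ idx) (hg : 4 ≤ m ∨ g ≠ 2) (hg1 : g ≠ 1) :
    g = 0 ∨ (1 - (g : ℤ)) * ((r : ℤ) - 3) + idx * d ≤ 0 := by
  rcases Nat.eq_zero_or_pos g with h0 | h0
  · exact Or.inl h0
  right
  have hd' : (d : ℤ) ≤ 1 := by exact_mod_cast hd
  have hr' : (4 : ℤ) ≤ r := by exact_mod_cast hr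
  have hm' : (3 : ℤ) ≤ m := by exact_mod_cast hm
  have h1 : idx * d ≤ idx := by nlinarith
  by_cases hg2 : g = 2
  · subst hg2
    have hm4 : (4 : ℤ) ≤ m := by
      rcases hg with h | h
      · exact_mod_cast h
      · exact absurd rfl h
    push_cast
    linarith
  · have hg3 : (3 : ℤ) ≤ g := by exact_mod_cast (by omega : 3 ≤ g)
    nlinarith

/-- Virasoro constraints for Fano complete intersections of even dimension, arbitrary
insertions. -/
theorem result (X : CompleteIntersection) (he : Even X.dim) (hX : 3 ≤ X.dim)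
    (hi : 2 ≤ index X) (F : ℕ → ℕ → List (Ins X) → ℂ) (hF : IsGW X F)
    (h1 : IsGenusOneFull F) :
    (3 ≤ excess X →
      (2 * excess X ≤ X.dim + 2 ∨ 3 * excess X ≤ 2 * X.dim + 3 ∧ IsLine F) →
      1 < Nat.gcd (X.dim - 2) (excess X - 3) →
      ∀ (K d : ℕ) (L : List (Ins X)), virasoro X F K 1 d L = 0) ∧
    (3 ≤ excess X → IsLine F → ∀ (K g d : ℕ) (L : List (Ins X)), d ≤ 1 →
      (4 ≤ excess X ∨ g ≠ 2) → virasoro X F K g d L = 0) ∧
    (3 ≤ excess X →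
      (2 * excess X ≤ X.dim + 2 ∨ 3 * excess X ≤ 2 * X.dim + 3 ∧ IsLine F) →
      ∀ (K d : ℕ) (L : List (Ins X)),
      (∀ n e : ℕ, 1 ≤ n → 2 * n ≤ (L.countP fun x => x.1.isRight) → e ≤ d →
        index X * e ≠ 1 + n * ((X.dim : ℤ) - 2)) → virasoro X F K 1 d L = 0) ∧
    (1 ≤ excess X → ∀ N0 D : ℕ,
      (∀ k d : ℕ, 1 ≤ d → d ≤ D → index X * d = k → k + 2 ≤ excess X →
        virasoro X F (k + 1) 1 d [] = 0) →
      (∀ (w : List X.Prim) (d : ℕ), w ≠ [] → w.length ≤ N0 → d ≤ D → (3 ≤ excess X →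
        ∃ n : ℕ, w.length = 2 * n ∧ index X * d = 1 + n * ((X.dim : ℤ) - 2)) →
        virasoro X F 2 1 d (w.map fun v => (Sum.inr v, 0)) = 0) →
      ∀ (K d : ℕ) (L : List (Ins X)), d ≤ D → (L.countP fun x => x.1.isRight) ≤ N0 →
        virasoro X F K 1 d L = 0) ∧
    (X.degs = [3] → IsCubic F → ∀ (K d : ℕ) (L : List (Ins X)), virasoro X F K 1 d L = 0) := by
  have hid := Vale.Agent.P269.G1.index_eq X
  refine ⟨fun hm h2 hg K d L => ?_, fun hm hL K g d L hd hg => ?_, fun hm h2 K d L hn => ?_,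
    fun hm N0 D hz h3 K d L hd hL =>
      main_le X he hX hi F hF h1 hm N0 D hz h3 K d L hd hL, ?_⟩
  · exact main_free X he hX hi F hF h1 hm K d L (h2.imp id fun h => ⟨Or.inr h.1, h.2⟩)
      fun n e _ _ _ => gcd_case X.dim (excess X) (index X) hid (by omega) hm hg n e
  · have h4 : 4 ≤ X.dim := by
      obtain ⟨k, hk⟩ := he
      omega
    by_cases hg1 : g = 1
    · subst hg1
      refine main_free X he hX hi F hF h1 hm K d L (Or.inr ⟨Or.inl hd, hL⟩)
        fun n e hn _ hed h => ?_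
      have hn' : (1 : ℤ) ≤ n := by exact_mod_cast hn
      have hd' : (e : ℤ) ≤ 1 := by exact_mod_cast hed.trans hd
      have hr : (2 : ℤ) ≤ (X.dim : ℤ) - 2 + 1 := by omega
      nlinarith
    · exact Vale.Agent.P269.H597.main_range hF K g d
        (range_le_one X.dim (excess X) g d (index X) hid h4 hm hd hi hg hg1) L
  · exact main_free X he hX hi F hF h1 hm K d L (h2.imp id fun h => ⟨Or.inr h.1, h.2⟩) hn
  · intro hd hc K d L
    have h4 : 4 ≤ X.dim := by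
      obtain ⟨k, hk⟩ := he
      omega
    have h2 : excess X = 2 := by simp [excess, hd]
    exact Vale.Agent.P269.G2.virasoro_cubic hF he h1 h4 hd hc
      (ambient hF h1 hX hi (by omega) fun k d hd' hk hk2 =>
        (no_numbers (by omega) k d hd' hk hk2 hi).elim) K d L

end Vale.Agent.Results.P269.FanoGenusOneEven
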